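/-!
# Plan: linear lifting for Kadison–Kastler (all types at once)

Definitions/statements: `Crest.Agent.H1KK.Defs`.  Notation `<a,b>` = Mathlib inner (conj-linear in `a`).
Targets (each in its own file, namespace `Crest.Agent.H1KK`, `H : Type u`):
* T1 `hasMD : HasMD H`, T4 `band : Band H` (helper1; files TT*.lean)
* T2 `lemQ : LemQ H`, `bures : Bures H`, T8 `lift_of_dual : 0 ≤ c → 0 ≤ δ → Dual H c δ → Setting M N δ t t' → Lift M N (4*(c+2*δ))` (file Q*.lean)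
* T3 `emb : ∃ m₀ C₀, 0 < m₀ ∧ 0 < C₀ ∧ ∀ H.., Emb H m₀ C₀` (Emb*.lean)
* T5 `coinB : CoinB H` (Coin*.lean),  T6 `roundA : LemQ H → Bures H → RoundA H` (RA*.lean)
* T7 `dual : 0<m₀ → 0<C₀ → ∀ c>0, ∃ δ>0, ∀ H.., HasMD H → Band H → Emb H m₀ C₀ → CoinB H → RoundA H → Dual H c δ` (Asm*.lean)

## T2
LemQ: E = span of the functionals `y ↦ <β, y α>` on N; every element is ONE such (direct sums `t'₀α₁+t'₁α₂`,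
rebalance norms by scalars).  n(f) = inf ‖α‖‖β‖ is a seminorm; Hahn–Banach gives ψ ≤ n, ψ f₀ = n f₀; the
sesquilinear form (β,α) ↦ ψ(ω_{α,β}) is an operator y, ‖y‖ ≤ 1, commuting with N', so y ∈ N and n f₀ = f₀ y ≤ c.
Bures: ω_{ζ₁}-ω_{ζ₂} = ω_{a,b} on M; at y = x*x take real parts: ‖xζ₁‖²+¼‖x(a-b)‖² = ‖xζ₂‖²+¼‖x(a+b)‖².
ζ = t'₀ζ₁+½t'₁(a-b): x ζ ↦ x ζ₂ extends (0 on the complement) to a contraction T ∈ M'; w = T t'₀.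
T8: V = (unitaries of M) →₀ (formal sums of pairs); or HB with `hb_cone`: functional -∑<η, v(u)ξ> on relations is
≤ (c+δ)∑‖ξ‖‖η‖; extension gives n(u), ‖n(u)‖ ≤ c+δ, n(u) ∈ N (single-u tensors vanishing on N are relations with
value 0), φ(u) = v(u)+n(u) respects linear relations (∑λ_u u = 0 ⇒ (u, λ_u ξ, η) is a relation).

## T5 (coin lemma).  Words w : Fin K → I, weight ∏p; W = L_i g_{k_i} R_i, R'_i the same word in g'.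
V x ∈ N, V' x' ∈ N' chosen lifts (contractions).  η_w = (1/K)∑_i (V' R'_i)* (V L_i) β_{k_i}.
(0) VRel ⇒ ∑ p_k <β_k, A g_k ζ> = 0 for every operator A (orthonormal basis of span β).  Hence E<η_w, Wξ> = 0 and
|E<η_w,(V W)ξ>| ≤ δ‖ξ‖(E‖η_w‖²)^½.
(1) <η-term, V W ξ> = <β_k, (V L)*(V W)(V'R')ξ>, (V'R')ξ = (V R)*ξ - ζ_R, ‖ζ_R‖ ≤ 2δ‖ξ‖+‖R R'ξ-ξ‖, and
‖(V L)*(V W)(V R)* - v_k‖ ≤ 4δ; use NB for fixed (L,R).  E‖R R'ξ-ξ‖² = 2‖ξ‖²-2Re<ξ,𝔐^m ξ> ≤ m ε², 𝔐 = ∑ p g g'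
self-adjoint contraction, 1-𝔐^m = ∑_j 𝔐^j (1-𝔐), <𝔐^j s ξ, s ξ> ≤ ‖sξ‖², s = √(1-𝔐).
(2) cross term i<j, w = L k Y l R: <(V'R'_i)*(V L)β_k,(V'R')*(V L_j)β_l>; sum over k first:
γ = ∑p_k (V(L g_k Y))*(V L)β_k has ‖γ‖ ≤ c (NB N); then the sum over l is ≤ c'‖γ‖ (NB N').
Tip: recursion on lists (E over List.Vector / `Fin K → I` with `Fin.insertNth`, or define E_K f recursively).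

## T6 (round A).  Add the identity letter with weight ½ and zero marks (𝔐 ≥ 0).  π(R) = R R'.
β°_k = Y_k* g_k* η_k, γ = ∑pβ°, ‖γ‖ ≤ √κ₀, a_n = <γ,𝔐^nγ> decreasing in [0,κ₀]; pigeonhole over K = K₀C^j gives
a_{K/C} - a_{3K} small.  γ∞ = 𝔐^Kγ, c = <γ∞, · ξ> on M.
μ_w(z) = (1/K)∑<L_iη_k, z R_i* Y_kξ>;  μ_w(W z) = (1/K)∑<R*g*η_k, z Y_k R*ξ>, R*ξ = R'ξ - R*(π(R)ξ-ξ), so
μ_w(W z) = <(1/K)∑π(R_i)*β°_{k_i}, zξ> + err, E err ≤ √κ₀ (E‖π(R)ξ-ξ‖²)^½‖z‖.  Martingale: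
E‖(1/K)∑π(R_i)*(β°_{k_i}-γ)‖² ≤ b/K;  E‖(1/K)∑π(R_i)*γ-γ∞‖² = K⁻²∑a_{|i-j|} - (2/K)∑a_{K+|R_i|} + a_{2K} small;
E‖π(W)γ∞-γ∞‖² = 2a_{2K}-2a_{3K}.  So E sup_z|μ_w(Wz)-c(z)| small, ν = ‖c‖ ≤ 1+small, d_w = sup|c(W*zW)-c(z)| small
on average (c(W*zW) = <π(W)γ∞, zπ(W)ξ>).  LemQ: c = <α', · α>, ‖α‖²=‖α'‖² ≤ ν+τ; z₀ with Re c(z₀) ≥ ν-τ:
z₀α ≈ α', z₀*α' ≈ α, W z₀ W*α ≈ α', W z₀* W*α' ≈ α, so ω_{Wα}(y) ≈ c(z₀W*yW) ≈ c(W z₀W* y) ≈ ω_α(y); same for α';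
Bures gives w, w'.  S_w(y) = (1/K)∑<(V L_i)η_k, y (V R_i)* Y_kξ> satisfies ∑P S_w(y) W = 0 (y ∈ N),
|S_w - <Wα', · α>| ≤ 2δ+e_w on the ball of M, hence ≤ 5δ+e_w on the ball of N (nuclear norm ≤ 3); LemQ gives a, a'.
<α',α> = c(1) = <γ,𝔐^Kξ> ≈ <γ,ξ>.

## T3 (embedding).  η = a₀/n, χ_a = e^{-aη}/Z (a<n), ξ₁ = ∑√χ_a t_a t'_a ξ, F(u) = (σ√(2π))⁻¹e^{-u²/(2σ²)},
k_s(p) = (η/2π) e^{-σ²η²p²/2} e^{-ipsη}; x^{(s)} v = ∫k_s(p) σ_p(x) v dp ∈ M (cf. H3Mod.exists_smear),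
x^{(s)}ξ = F_s(D) q xξ, F_s(u) = F(u/η - s) (H3Mod.integral_wave, `fourierIntegral_gaussian`/`integral_cexp_quadratic`).
Θ₀x = ∑_{a,b} t_a x^{(a-b)} t_b*, Θ₀'h = ∑ t'_b (∫k_{a-b}ρ_p h) t'_a*.  Norm ≤ C_Θ‖x‖: <ζ',Θ₀ζ> = ∫k_0<ζ'^(p),σ_p(x)ζ^(p)>,
ζ^(p) = ∑e^{ipbη}t_b*ζ, ∫k_0‖ζ^‖² = ∑F(a-b)<ζ_a,ζ_b> ≤ sup_b∑_aF(a-b)·‖ζ‖²; ∑_{a<n}F(v-a) ≤ C_Θ for σ ≥ 1 (F ≤ c/(σ(1+u²/σ²)),
1/(1+x²/σ²) ≤ 3σ(arctan((x+1)/σ)-arctan(x/σ))).  ‖Θ₀hξ₁-Θ₀'hξ₁‖² = ∑χ_b‖f_{a-b}(D)qhξ‖², f_s = (1-e^{ηu/2})F(u) at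
u = L/η-s (HalfExp), |f|² ≤ C(σ)η²/(1+u²).  E = Fin n → Bool, r_e = 1-2∑_{e a}t_at_a*, r'_e likewise, A = n^{-½}∑t_a,
A_e = r_eA, Y_e = ∑±(nχ_a)^{-½}t'_a*, Θ_e x = r_e Θ₀x r_e/(4C_Θ).  h = Θ₀(Re x or Im x)/(2C_Θ), u = h ± i√(1-h²),
u' = h' ∓ i√(1-h'²); (s+s')(s-s') = -(h+h')(h-h') gives ‖(s-s')ξ₁‖ ≤ ‖(h-h')ξ₁‖.  A*Θ₀xAξ = Φ_n(D)qxξ,
Φ_n(L) = (1/n)∑_bψ(L/η+b), ψ(v) = ∑_{a<n}F(v-a), m = Φ_n(0) ≥ ½e^{-½}/√(2π) (σ ∈ ℕ, n ≥ 2σ),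
|Φ_n(L)-m| ≤ C/σ + C(|L|/a₀+1/n) (integer shift telescopes, fractional shift by MVT), also ≤ C.  (a): a₀ = 1,
min(1,|L|) ≤ 3|tanh(L/2)|; (b): `D.window`/`H3Mod.exists_cutoff`, then a₀, σ large, κ₀ = e^{a₀}.

## T7 (assembly).  Suppose |Λ| > c N₁; normalise unit vectors, weights p.  ξ = ∑√(p_k/2)(t'_{2k}ξ_k+t'_{2k+1}η_k),
y_k = √(2/p_k)t'_{2k}*, z_k likewise.  Emb (b): I = κ × (Bool×Bool) × E, marks Y_i = c_j y_k Y_e, η_i = A_eη_k; the relation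
survives (apply Θ_e; A_e* y A_e ∈ N), Λ_emb = ∑p<η_k,Φ(x_k)ξ_k> ≈ mΛ (ξ_k = y_kξ, qη_k = η_k), b ≤ C n, ε = E₀/n.
Round A.  Lift w' to y'' ∈ N'; move <Wα'-y''α', · α> into the error.  New ξ = t'₀α+t'₁α'+∑√P(t' e+t' e') over the two
error families; Wξ ≈ (t'₀wt'₀*+t'₁w't'₁*)ξ.  β_o = G(∑ y*z ξ) (Band): VRel, NB ≤ C.  Emb (a): β_i = conj(c_j) Y_e* A_eβ_o,
NB N ≤ √3·C, NB N' ≤ √3·C, b ≤ 3nB.  CoinB with K = n: upper bound O(δ)+o(1).  Lower bound: ∑<β_i,v_iξ₁> =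
∑P<β_o, ṽ_oξ>, ṽ = avg_e ¼∑c_jA_e*v A_e ∈ N, ‖ṽ-ΦW‖ ≤ δ; main part <t'₀y''α', Gṽξ> ≈ m<Wα',Wα> = m<α',α>.
-/
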